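import Vale.Agent.P269.G1.H598.OmPoly

/-!
# The form `omega` is closed: block [A-S]
-/

namespace Vale.Agent.P269.G1.H920

open Finset.HasAntidiagonal (antidiagonal)
open Finset

variable {R A O : Type*} [CommRing R] [Algebra ℚ R] [CommRing A] [Algebra R A]
    [Ring O] [Algebra R O] (S : Frob R A O)

/-! ## Elementary rules -/

lemma der_one (x : A) : S.der x 1 = 0 := by
  have h := S.der_mul x 1 1
  simp only [mul_one, one_mul] at h
  exact left_eq_add.mp h

lemma der_alg (x : A) (c : ℚ) : S.der x (algebraMap ℚ R c) = 0 := by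
  have h := S.der_rat x c 1
  rw [der_one, smul_zero, Algebra.smul_def, mul_one] at h
  exact h

lemma der_sum {ι : Type*} (x : A) (s : Finset ι) (f : ι → R) :
    S.der x (∑ i ∈ s, f i) = ∑ i ∈ s, S.der x (f i) := by
  have h0 : S.der x 0 = 0 := by
    have h := S.der_add x 0 0
    simp only [add_zero] at h
    exact left_eq_add.mp h
  classical
  induction s using Finset.induction_on with
  | empty => simpa using h0
  | insert a s ha ih => rw [Finset.sum_insert ha, Finset.sum_insert ha, S.der_add, ih]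

lemma nab_zero (x : A) : S.nab x 0 = 0 := by
  have h := S.nab_add x 0 0
  simp only [add_zero] at h
  exact left_eq_add.mp h

lemma nab_sub (x y z : A) : S.nab x (y - z) = S.nab x y - S.nab x z := by
  have h := S.nab_add x (y - z) z
  rw [sub_add_cancel] at h
  rw [h, add_sub_cancel_right]

lemma nabO_one (x : A) : S.nabO x 1 = 0 := by
  have h := S.nabO_mul x 1 1
  simp only [mul_one, one_mul] at h
  exact left_eq_add.mp h

/-- the grading operator `mu` on vector fields -/
noncomputable def M (x : A) : A := S.d x - (algebraMap ℚ R S.rho) • x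

lemma M_add (x y : A) : M S (x + y) = M S x + M S y := by
  unfold M; rw [map_add, smul_add]; ring

lemma M_sub (x y : A) : M S (x - y) = M S x - M S y := by
  unfold M; rw [map_sub, smul_sub]; ring

lemma M_zero : M S 0 = 0 := by
  unfold M; rw [map_zero, smul_zero, sub_zero]

lemma M_nat_mul (n : ℕ) (x : A) : M S ((n : A) * x) = (n : A) * M S x := by
  unfold M
  rw [← nsmul_eq_mul, map_nsmul, mul_sub, nsmul_eq_mul, nsmul_eq_mul, mul_smul_comm]

lemma nab_M (x y : A) : S.nab x (M S y) = M S (S.nab x y) := by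
  unfold M
  rw [nab_sub, S.nab_d, S.nab_smul, der_alg, zero_smul, zero_add]

/-- the basic rule -/
lemma nab_E_mul (v y : A) :
    S.nab v (S.E * y) = v * y + S.E * S.nab v y + v * S.d y - S.d (v * y) := by
  have h := S.c4_E v y
  rw [S.nab_E] at h
  linear_combination h

/-! ## The polynomials `P` and `Phi` -/

/-- `P v m = ∑_{a+b=m-1} E^a (d(v E^b) - v d(E^b))` -/
noncomputable def P (v : A) : ℕ → A
  | 0 => 0
  | m + 1 => S.E * P v m + S.d (v * S.E ^ m) - v * S.d (S.E ^ m)

/-- `Phi n = ∑_{a+b=n-1} E^a M(E^b)` -/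
noncomputable def Phi : ℕ → A
  | 0 => 0
  | n + 1 => S.E * Phi n + M S (S.E ^ n)

lemma P_zero (v : A) : P S v 0 = 0 := rfl
lemma P_succ (v : A) (m : ℕ) :
    P S v (m + 1) = S.E * P S v m + S.d (v * S.E ^ m) - v * S.d (S.E ^ m) := rfl
lemma Phi_zero : Phi S 0 = 0 := rfl
lemma Phi_succ (n : ℕ) : Phi S (n + 1) = S.E * Phi S n + M S (S.E ^ n) := rfl

lemma nab_pow (v : A) (m : ℕ) :
    S.nab v (S.E ^ m) = (m : A) * (v * S.E ^ (m - 1)) - P S v m := by
  induction m with
  | zero => simp [S.nab_one, P_zero]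
  | succ m ih =>
    rw [pow_succ', nab_E_mul, ih, P_succ]
    rcases m with _ | m
    · simp
      ring
    · simp only [Nat.add_sub_cancel]
      push_cast
      ring

lemma P_E_mul (v : A) (m : ℕ) :
    P S (S.E * v) m = S.E * P S v m + S.d (v * S.E ^ m) - S.E ^ m * S.d v := by
  induction m with
  | zero => simp [P_zero]
  | succ m ih =>
    rw [P_succ, ih, P_succ]
    have h : S.d (S.E * v * S.E ^ m) = S.d (v * S.E ^ (m + 1)) := by
      congr 1; ring
    rw [h]
    ring

lemma P_add (v w : A) (m : ℕ) : P S (v + w) m = P S v m + P S w m := by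
  induction m with
  | zero => simp [P_zero]
  | succ m ih =>
    rw [P_succ, ih, P_succ, P_succ, add_mul, map_add]
    ring

lemma P_zero_left (m : ℕ) : P S 0 m = 0 := by
  induction m with
  | zero => simp [P_zero]
  | succ m ih => rw [P_succ, ih]; simp

lemma P_one (m : ℕ) : P S 1 m = 0 := by
  induction m with
  | zero => simp [P_zero]
  | succ m ih => rw [P_succ, ih]; simp

lemma P_symm (n m : ℕ) : P S (S.E ^ n) m = P S (S.E ^ m) n := by
  induction m with
  | zero => rw [P_zero, pow_zero, P_one]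
  | succ m ih =>
    rw [P_succ, ih, pow_succ' S.E m, P_E_mul, ← pow_add, ← pow_add, add_comm m n]

/-- `T n m` -/
noncomputable def T (n m : ℕ) : A := P S (Phi S n) m + S.nab (S.E ^ m) (Phi S n)

lemma T_succ (n m : ℕ) : T S (n + 1) m = S.E * T S n m + S.E ^ m * Phi S n
    + P S (M S (S.E ^ n)) m + M S (S.nab (S.E ^ m) (S.E ^ n)) := by
  unfold T
  rw [Phi_succ, P_add, P_E_mul, S.nab_add, nab_E_mul, nab_M, mul_comm (S.E ^ m) (Phi S n)]
  ring

/-- the second-variable recursion -/
lemma T_snd (m n : ℕ) : T S m (n + 1) - S.E * T S m n =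
    S.E ^ m * Phi S n - Phi S (m + n) + P S (M S (S.E ^ n)) m
      + (m : A) * M S (S.E ^ (m + n - 1)) - M S (P S (S.E ^ m) n) := by
  induction m with
  | zero =>
    unfold T
    simp only [Phi_zero, P_zero_left, nab_zero, pow_zero, P_zero, P_one, M_zero]
    simp
  | succ m ih =>
    rw [T_succ, T_succ]
    have e1 : P S (M S (S.E ^ m)) (n + 1) = S.E * P S (M S (S.E ^ m)) n
        + S.d (M S (S.E ^ m) * S.E ^ n) - M S (S.E ^ m) * S.d (S.E ^ n) := P_succ S _ _
    have e2 : S.nab (S.E ^ (n + 1)) (S.E ^ m) = (m : A) * S.E ^ (m + n)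
        - (S.E * P S (S.E ^ m) n + S.d (S.E ^ (m + n)) - S.E ^ m * S.d (S.E ^ n)) := by
      rw [nab_pow, P_symm, P_succ]
      simp only [← pow_add]
      rcases m with _ | m
      · simp
      · rw [show n + 1 + (m + 1 - 1) = m + 1 + n by omega]
    have e3 : S.nab (S.E ^ n) (S.E ^ m) = (m : A) * S.E ^ (m + n - 1) - P S (S.E ^ m) n := by
      rw [nab_pow, P_symm]
      rcases m with _ | m
      · simp
      · congr 2
        rw [← pow_add]
        congr 1
        omega
    have e4 : P S (M S (S.E ^ n)) (m + 1) = S.E * P S (M S (S.E ^ n)) m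
        + S.d (M S (S.E ^ n) * S.E ^ m) - M S (S.E ^ n) * S.d (S.E ^ m) := P_succ S _ _
    have e5 : P S (S.E ^ (m + 1)) n = S.E * P S (S.E ^ m) n + S.d (S.E ^ (m + n))
        - S.E ^ n * S.d (S.E ^ m) := by
      rw [pow_succ', P_E_mul, ← pow_add]
    have e6 : Phi S (m + 1 + n) = S.E * Phi S (m + n) + M S (S.E ^ (m + n)) := by
      rw [show m + 1 + n = (m + n) + 1 by ring, Phi_succ]
    have e7 : m + 1 + n - 1 = m + n := by omega
    rw [e1, e2, e3, e4, e5, e6, e7]
    simp only [M_sub, M_add, M_nat_mul]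
    have e8 : S.d (M S (S.E ^ m) * S.E ^ n) + M S (S.E ^ m * S.d (S.E ^ n))
        - M S (S.E ^ m) * S.d (S.E ^ n) = S.d (M S (S.E ^ n) * S.E ^ m)
          + M S (S.E ^ n * S.d (S.E ^ m)) - M S (S.E ^ n) * S.d (S.E ^ m) := by
      unfold M
      simp only [sub_mul, smul_mul_assoc, map_sub, map_smul]
      have : S.E ^ m * S.E ^ n = S.E ^ n * S.E ^ m := mul_comm _ _
      rw [this, mul_comm (S.d (S.E ^ m)) (S.E ^ n), mul_comm (S.d (S.E ^ n)) (S.E ^ m)]
      ring
    push_cast
    linear_combination S.E * ih + e8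

lemma nab_one_Phi (m : ℕ) : S.nab 1 (Phi S m) = (m : A) * Phi S (m - 1) := by
  induction m with
  | zero => simp [Phi_zero, nab_zero]
  | succ m ih =>
    rw [Phi_succ, S.nab_add, nab_E_mul, nab_M, nab_pow, P_one, ih]
    rcases m with _ | m
    · simp [M_zero, Phi_zero]
    · simp only [Nat.add_sub_cancel, one_mul, sub_zero, M_nat_mul]
      rw [Phi_succ]
      push_cast
      ring

lemma T_antisymm (n m : ℕ) : T S n m - T S m n = ((n : A) - m) * Phi S (m + n - 1) := by
  induction n with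
  | zero =>
    unfold T
    simp only [Phi_zero, P_zero_left, nab_zero, P_zero, pow_zero, nab_one_Phi]
    simp
  | succ n ih =>
    have h1 := T_succ S n m
    have h2 := T_snd S m n
    rw [h1]
    have h3 : S.nab (S.E ^ m) (S.E ^ n) = (n : A) * S.E ^ (m + n - 1) - P S (S.E ^ m) n := by
      rw [nab_pow]
      rcases n with _ | n
      · simp
      · congr 2
        rw [← pow_add]
        congr 1
    rw [h3, M_sub, M_nat_mul]
    have h4 : ((n : A) - m) * Phi S (m + n) = ((n : A) - m) *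
        (S.E * Phi S (m + n - 1) + M S (S.E ^ (m + n - 1))) := by
      rcases Nat.eq_zero_or_pos (m + n) with h | h
      · have hm : m = 0 := by omega
        have hn : n = 0 := by omega
        subst hm; subst hn
        simp
      · obtain ⟨k, hk⟩ := Nat.exists_eq_succ_of_ne_zero h.ne'
        rw [hk]
        rfl
    rw [show m + (n + 1) - 1 = m + n by omega]
    push_cast
    linear_combination S.E * ih - h2 - h4

/-! ## The theta part -/

lemma c4O_comm (x y : A) : S.c4O x y = S.c4O y x := S.c4O_symm x y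

lemma der_theta (v x : A) :
    S.der v (S.str (S.C x)) = S.str (S.C (S.nab v x)) + S.str (S.c4O v x) := by
  rw [S.der_str, Frob.c4O, map_sub]
  ring

lemma psi_zero : S.psi 0 = 0 := by rw [H598.psi_eq]; simp

lemma psi_succ (n : ℕ) : S.psi (n + 1) = S.C S.E * S.psi n + S.mu * S.C (S.E ^ n) := by
  have h := H598.psi_add S n 1
  have h1 : S.psi 1 = S.mu := by rw [H598.psi_eq]; simp
  rw [h1, pow_one] at h
  exact h

lemma Phi_eq (n : ℕ) : Phi S n = S.phi n := by
  induction n with
  | zero => rw [H598.phi_eq, Phi_zero]; simp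
  | succ n ih =>
    rw [Phi_succ, ih, H598.phi_add S n 1]
    simp [M]

lemma nabO_pow (v : A) (m : ℕ) :
    S.nabO v (S.C (S.E ^ m)) = (m : O) * S.C (v * S.E ^ (m - 1))
      + S.C v * S.psi m - S.psi m * S.C v := by
  induction m with
  | zero => simp [nabO_one, psi_zero]
  | succ m ih =>
    have hc : S.C v * S.C S.E = S.C S.E * S.C v := by rw [← map_mul, ← map_mul, mul_comm]
    have hc2 : S.C v * S.C (S.E ^ m) = S.C (S.E ^ m) * S.C v := by
      rw [← map_mul, ← map_mul, mul_comm]
    have hm : (m : O) * S.C (v * S.E ^ m) =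
        S.C S.E * ((m : O) * S.C (v * S.E ^ (m - 1))) := by
      rcases m with _ | m
      · simp
      · rw [Nat.add_sub_cancel, ← mul_assoc, ← (Nat.cast_commute (m + 1) (S.C S.E)).eq, mul_assoc,
          ← map_mul]
        congr 2
        ring
    have e4 : S.C (v * S.E ^ m) = S.C v * S.C (S.E ^ m) := map_mul _ _ _
    rw [pow_succ', map_mul, S.nabO_mul, S.nabO_U, ih, psi_succ, Nat.add_sub_cancel]
    push_cast
    rw [add_mul, hm, e4]
    have e1 : S.mu * S.C (S.E ^ m) * S.C v = S.mu * S.C v * S.C (S.E ^ m) := by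
      rw [mul_assoc, ← hc2, ← mul_assoc]
    have e2 : S.C S.E * S.psi m * S.C v = S.C S.E * (S.psi m * S.C v) := mul_assoc _ _ _
    have e3 : S.C v * (S.C S.E * S.psi m) = S.C S.E * (S.C v * S.psi m) := by
      rw [← mul_assoc, hc, mul_assoc]
    rw [mul_add (S.C v), add_mul (S.C S.E * S.psi m), e1, e2, e3]
    noncomm_ring

lemma str_c4O_pow (v : A) (m : ℕ) : S.str (S.c4O v (S.E ^ m)) = S.str (S.C (P S v m)) := by
  have h : S.str (S.C v * S.psi m) = S.str (S.psi m * S.C v) := S.str_comm _ _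
  have e : S.C ((m : A) * (v * S.E ^ (m - 1))) = (m : O) * S.C (v * S.E ^ (m - 1)) := by
    rw [← nsmul_eq_mul, map_nsmul, nsmul_eq_mul]
  rw [Frob.c4O, nabO_pow, nab_pow, map_sub S.C, e]
  rw [map_sub, map_sub, map_add, map_sub, h]
  ring

lemma der_phi (m n : ℕ) : S.der (S.E ^ m) (S.str (S.C (S.phi n))) = S.str (S.C (T S n m)) := by
  rw [← Phi_eq, der_theta, c4O_comm, str_c4O_pow, T, map_add, map_add]
  ring

lemma theta_closed (m n : ℕ) :
    S.der (S.E ^ m) (S.str (S.C (S.phi n))) - S.der (S.E ^ n) (S.str (S.C (S.phi m))) =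
      ((n : R) - m) * S.str (S.C (S.phi (m + n - 1))) := by
  rw [der_phi, der_phi, ← map_sub, ← map_sub, T_antisymm, Phi_eq]
  have : ((n : A) - m) * S.phi (m + n - 1) = ((n : R) - m) • S.phi (m + n - 1) := by
    rw [Algebra.smul_def, map_sub, map_natCast, map_natCast]
  rw [this, map_smul, map_smul, smul_eq_mul]

/-! ## The trace part -/

/-- `t a b = str (mu U^a mu U^b)` -/
noncomputable def t (a b : ℕ) : R := S.str (S.mu * S.C (S.E ^ a) * S.mu * S.C (S.E ^ b))

lemma t_symm (a b : ℕ) : t S a b = t S b a := by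
  unfold t
  rw [mul_assoc (S.mu * S.C (S.E ^ a)), S.str_comm, ← mul_assoc]

/-- `K x a b = str (mu U^a mu ∇_x(U^b))` -/
noncomputable def K (x : A) (a b : ℕ) : R :=
  S.str (S.mu * S.C (S.E ^ a) * S.mu * S.nabO x (S.C (S.E ^ b)))

lemma der_t (x : A) (a b : ℕ) : S.der x (t S a b) = K S x a b + K S x b a := by
  unfold t K
  rw [S.der_str, S.nabO_mul, S.nabO_mul, S.nabO_mul, S.nabO_mu, map_add]
  rw [zero_mul, zero_add, mul_zero, add_zero, add_comm]
  congr 1
  rw [mul_assoc (S.mu * _), S.str_comm, ← mul_assoc]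

/-- the three-`mu` words -/
noncomputable def Z (x : A) (a b : ℕ) : R :=
  S.str (S.mu * S.C (S.E ^ a) * S.mu * (S.C x * S.psi b))
    - S.str (S.mu * S.C (S.E ^ a) * S.mu * (S.psi b * S.C x))

lemma K_eq (m a b : ℕ) : K S (S.E ^ m) a b = (b : R) * t S a (m + (b - 1)) + Z S (S.E ^ m) a b := by
  unfold K Z t
  rw [nabO_pow, mul_sub, mul_add, map_sub, map_add, ← pow_add]
  have : S.str (S.mu * S.C (S.E ^ a) * S.mu * ((b : O) * S.C (S.E ^ (m + (b - 1))))) =
      (b : R) * S.str (S.mu * S.C (S.E ^ a) * S.mu * S.C (S.E ^ (m + (b - 1)))) := by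
    rw [← nsmul_eq_mul, mul_smul_comm, map_nsmul, nsmul_eq_mul]
  rw [this]
  ring

section series

/-- the generating series of the powers of `U` -/
noncomputable def F : PowerSeries O := PowerSeries.mk fun n => S.C (S.E ^ n)

/-- coefficientwise trace -/
noncomputable def tr (f : PowerSeries O) (n : ℕ) : R := S.str (PowerSeries.coeff n f)

lemma tr_comm (f g : PowerSeries O) (n : ℕ) : tr S (f * g) n = tr S (g * f) n := by
  unfold tr
  rw [PowerSeries.coeff_mul, PowerSeries.coeff_mul, map_sum, map_sum,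
    ← Finset.Nat.sum_antidiagonal_swap]
  exact Finset.sum_congr rfl fun p _ => S.str_comm _ _

lemma coeff_FmF (n : ℕ) :
    PowerSeries.coeff n (F S * PowerSeries.C S.mu * F S) = S.psi (n + 1) := by
  rw [PowerSeries.coeff_mul, H598.psi_eq, Finset.Nat.sum_antidiagonal_eq_sum_range_succ_mk]
  refine Finset.sum_congr rfl fun i hi => ?_
  rw [PowerSeries.coeff_mul_C]
  simp [F]

lemma Z_sum (x : A) (k : ℕ) :
    ∑ p ∈ antidiagonal k, Z S x p.1 (p.2 + 1) = 0 := by
  have h1 : ∑ p ∈ antidiagonal k, S.str (S.mu * S.C (S.E ^ p.1) * S.mu *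
      (S.C x * S.psi (p.2 + 1))) = tr S ((PowerSeries.C S.mu * F S * PowerSeries.C S.mu) *
        (PowerSeries.C (S.C x) * (F S * PowerSeries.C S.mu * F S))) k := by
    unfold tr
    rw [PowerSeries.coeff_mul, map_sum]
    refine Finset.sum_congr rfl fun p _ => ?_
    rw [PowerSeries.coeff_C_mul, coeff_FmF, PowerSeries.coeff_mul_C, PowerSeries.coeff_C_mul]
    simp [F]
  have h2 : ∑ p ∈ antidiagonal k, S.str (S.mu * S.C (S.E ^ p.1) * S.mu *
      (S.psi (p.2 + 1) * S.C x)) = tr S ((PowerSeries.C S.mu * F S * PowerSeries.C S.mu) *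
        ((F S * PowerSeries.C S.mu * F S) * PowerSeries.C (S.C x))) k := by
    unfold tr
    rw [PowerSeries.coeff_mul, map_sum]
    refine Finset.sum_congr rfl fun p _ => ?_
    rw [PowerSeries.coeff_mul_C, PowerSeries.coeff_mul_C, PowerSeries.coeff_C_mul, coeff_FmF]
    simp [F]
  have hc : PowerSeries.C (S.C x) * F S = F S * PowerSeries.C (S.C x) := by
    ext n
    rw [PowerSeries.coeff_C_mul, PowerSeries.coeff_mul_C]
    simp only [F, PowerSeries.coeff_mk]
    rw [← map_mul, ← map_mul, mul_comm]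
  unfold Z
  rw [Finset.sum_sub_distrib, h1, h2, sub_eq_zero]
  rw [tr_comm]
  have e : (PowerSeries.C S.mu * F S * PowerSeries.C S.mu) *
      ((F S * PowerSeries.C S.mu * F S) * PowerSeries.C (S.C x)) =
      (PowerSeries.C S.mu * F S * PowerSeries.C S.mu * F S * PowerSeries.C S.mu) *
        (F S * PowerSeries.C (S.C x)) := by
    simp only [mul_assoc]
  rw [e, tr_comm S (PowerSeries.C S.mu * F S * PowerSeries.C S.mu * F S * PowerSeries.C S.mu),
    ← hc]
  simp only [mul_assoc]

end series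

lemma Z_zero (x : A) (a : ℕ) : Z S x a 0 = 0 := by
  unfold Z
  rw [psi_zero]
  simp

lemma Z_range (x : A) (n : ℕ) : ∑ i ∈ range n, Z S x i (n - 1 - i) = 0 := by
  rcases n with _ | n
  · simp
  rcases n with _ | k
  · simp [Z_zero]
  rw [Finset.sum_range_succ]
  rw [show k + 1 + 1 - 1 - (k + 1) = 0 by omega, Z_zero, add_zero]
  have h := Z_sum S x k
  rw [Finset.Nat.sum_antidiagonal_eq_sum_range_succ_mk] at h
  rw [← h]
  refine Finset.sum_congr rfl fun i hi => ?_
  have := Finset.mem_range.1 hi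
  congr 1
  show k + 1 + 1 - 1 - i = k - i + 1
  omega

/-- the trace form -/
noncomputable def B (n : ℕ) : R := S.str (S.mu * S.psi n)

lemma B_eq (n : ℕ) : B S n = ∑ i ∈ range n, t S i (n - 1 - i) := by
  unfold B t
  rw [H598.psi_eq, Finset.mul_sum, map_sum]
  refine Finset.sum_congr rfl fun i _ => ?_
  congr 1
  simp only [mul_assoc]

lemma der_B (m n : ℕ) : S.der (S.E ^ m) (B S n) =
    2 * ∑ i ∈ range (m + n - 1), ((n - 1 - i : ℕ) : R) * t S i (m + n - 1 - 1 - i) := by
  rw [B_eq, der_sum]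
  simp only [der_t]
  rw [Finset.sum_add_distrib]
  have h1 : ∑ i ∈ range n, K S (S.E ^ m) (n - 1 - i) i =
      ∑ i ∈ range n, K S (S.E ^ m) i (n - 1 - i) := by
    rw [← Finset.sum_range_reflect]
    refine Finset.sum_congr rfl fun i hi => ?_
    have := Finset.mem_range.1 hi
    congr 1
    omega
  rw [h1, ← two_mul]
  congr 1
  simp only [K_eq]
  rw [Finset.sum_add_distrib, Z_range, add_zero]
  rcases n with _ | n
  · simp
  rw [Finset.sum_range_succ]
  rw [show n + 1 - 1 - n = 0 by omega, Nat.cast_zero, zero_mul, add_zero]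
  have hsub : range n ⊆ range (m + (n + 1) - 1) := by
    intro i hi
    rw [Finset.mem_range] at hi ⊢
    omega
  rw [← Finset.sum_subset hsub]
  · refine Finset.sum_congr rfl fun i hi => ?_
    have := Finset.mem_range.1 hi
    congr 2
    omega
  · intro i _ hi
    have : n + 1 - 1 - i = 0 := by
      rw [Finset.mem_range] at hi
      omega
    rw [this, Nat.cast_zero, zero_mul]

lemma B_closed (m n : ℕ) : S.der (S.E ^ m) (B S n) - S.der (S.E ^ n) (B S m) =
    ((n : R) - m) * B S (m + n - 1) := by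
  rw [der_B, der_B, add_comm n m, B_eq]
  set N := m + n - 1 with hN
  have h2 : ∀ f : ℕ → R, ∑ i ∈ range N, f i * t S i (N - 1 - i) =
      ∑ i ∈ range N, f (N - 1 - i) * t S i (N - 1 - i) := by
    intro f
    rw [← Finset.sum_range_reflect]
    refine Finset.sum_congr rfl fun i hi => ?_
    have := Finset.mem_range.1 hi
    rw [t_symm, show N - 1 - (N - 1 - i) = i by omega]
  have h3 := h2 fun i => ((n - 1 - i : ℕ) : R)
  have h4 := h2 fun i => ((m - 1 - i : ℕ) : R)
  have h5 : ∑ i ∈ range N, (((n - 1 - i : ℕ) : R) + ((n - 1 - (N - 1 - i) : ℕ) : R)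
      - ((m - 1 - i : ℕ) : R) - ((m - 1 - (N - 1 - i) : ℕ) : R)) * t S i (N - 1 - i) =
      ((n : R) - m) * ∑ i ∈ range N, t S i (N - 1 - i) := by
    rw [Finset.mul_sum]
    refine Finset.sum_congr rfl fun i hi => ?_
    congr 1
    have hi' := Finset.mem_range.1 hi
    have key : (n - 1 - i) + (n - 1 - (N - 1 - i)) + m = n + ((m - 1 - i) + (m - 1 - (N - 1 - i))) := by
      omega
    have key' : ((n - 1 - i : ℕ) : R) + ((n - 1 - (N - 1 - i) : ℕ) : R) + (m : R) =
        n + (((m - 1 - i : ℕ) : R) + ((m - 1 - (N - 1 - i) : ℕ) : R)) := by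
      exact_mod_cast congrArg (Nat.cast (R := R)) key
    linear_combination key'
  simp only [add_mul, sub_mul, Finset.sum_add_distrib, Finset.sum_sub_distrib] at h5
  linear_combination h5 + h3 - h4

/-- **[A-S]** the form `omega` is closed -/
theorem closed (m n : ℕ) :
    S.der (S.E ^ m) (S.om n) - S.der (S.E ^ n) (S.om m) = ((n : R) - m) * S.om (m + n - 1) := by
  have hn : ∀ f : R, ∀ x, S.der x (-f) = - S.der x f := by
    intro f x
    have h := S.der_rat x (-1) f
    simpa using h
  have hs : ∀ f g : R, ∀ x, S.der x (f - g) = S.der x f - S.der x g := by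
    intro f g x
    rw [sub_eq_add_neg, S.der_add, hn, ← sub_eq_add_neg]
  have h1 := B_closed S m n
  have h2 := theta_closed S m n
  simp only [H598.om_eq]
  rw [hs, hs, hn, hn, S.der_rat, S.der_rat, S.der_rat, S.der_rat]
  change S.der (S.E ^ m) (S.str (S.mu * S.psi n)) - S.der (S.E ^ n) (S.str (S.mu * S.psi m)) =
    ((n : R) - m) * S.str (S.mu * S.psi (m + n - 1)) at h1
  simp only [Algebra.smul_def]
  linear_combination -(algebraMap ℚ R (1 / 4)) * h1 - (algebraMap ℚ R (1 / 24)) * h2

end Vale.Agent.P269.G1.H920
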